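import Vale.Agent.P096.III.Defs
import Vale.Agent.P096.III.Conj.Tower

/-!
# P096 Pin: partners of centralising unitaries, orbit subspaces
-/

namespace Vale.Agent.P096.III.Pin

open scoped InnerProductSpace Topology
open Filter
open Vale.Agent.P082 (Alg)
open Vale.Agent.P132 (IsCS)

universe u

variable {H : Type u} [NormedAddCommGroup H] [InnerProductSpace ℂ H] [CompleteSpace H]
variable {M N : VonNeumannAlgebra H} {Ω : H} {G : ℕ → Finset (H →L[ℂ] H)}

/-- `x ↦ x v` on the algebra. -/
noncomputable def orbitMap (A : VonNeumannAlgebra H) (v : H) : Alg A →ₗ[ℂ] H where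
  toFun x := (x : H →L[ℂ] H) v
  map_add' _ _ := rfl
  map_smul' _ _ := rfl

/-- The closure of `A v`. -/
noncomputable def orbit (A : VonNeumannAlgebra H) (v : H) : Submodule ℂ H :=
  (LinearMap.range (orbitMap A v)).topologicalClosure

theorem mem_orbit {A : VonNeumannAlgebra H} {x : H →L[ℂ] H} (hx : x ∈ A) (v : H) :
    x v ∈ orbit A v :=
  Submodule.le_topologicalClosure _ ⟨⟨x, hx⟩, rfl⟩

/-- A continuous map that maps the orbit vectors into a closed subspace maps the orbit there. -/
theorem orbit_induction {A : VonNeumannAlgebra H} {v : H} {P : H → Prop}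
    (hP : IsClosed {w | P w}) (h : ∀ x ∈ A, P (x v)) {w : H} (hw : w ∈ orbit A v) : P w := by
  have hw' : w ∈ closure (Set.range (orbitMap A v)) := by
    rw [← LinearMap.coe_range, ← Submodule.topologicalClosure_coe]
    exact hw
  refine closure_minimal ?_ hP hw'
  rintro _ ⟨x, rfl⟩
  exact h x.1 x.2

instance (A : VonNeumannAlgebra H) (v : H) : CompleteSpace (orbit A v) :=
  (Submodule.isClosed_topologicalClosure _).completeSpace_coe

/-- An operator that maps the orbit into itself with its adjoint commutes with its projection. -/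
theorem commute_starProjection {A : VonNeumannAlgebra H} {v : H} {T : H →L[ℂ] H}
    (h1 : ∀ x ∈ A, T (x v) ∈ orbit A v) (h2 : ∀ x ∈ A, star T (x v) ∈ orbit A v) :
    Commute T (orbit A v).starProjection := by
  have cl : ∀ S : H →L[ℂ] H, (∀ x ∈ A, S (x v) ∈ orbit A v) → ∀ w ∈ orbit A v, S w ∈ orbit A v :=
    fun S hS w hw => orbit_induction
      ((Submodule.isClosed_topologicalClosure _).preimage S.continuous) hS hw
  refine ContinuousLinearMap.ext fun w => ?_
  show T ((orbit A v).starProjection w) = (orbit A v).starProjection (T w)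
  refine (Submodule.eq_starProjection_of_mem_of_inner_eq_zero
    (cl T h1 _ (Submodule.starProjection_apply_mem _ w)) fun z hz => ?_).symm
  rw [← map_sub, ← ContinuousLinearMap.adjoint_inner_right, ← ContinuousLinearMap.star_eq_adjoint]
  exact Submodule.starProjection_inner_eq_zero w _ (cl _ h2 z hz)

theorem starProjection_mem_commutant (A : VonNeumannAlgebra H) (v : H) :
    (orbit A v).starProjection ∈ A.commutant := by
  refine VonNeumannAlgebra.mem_commutant_iff.2 fun a ha => (commute_starProjection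
    (fun x hx => ?_) fun x hx => ?_).eq
  · exact mem_orbit (mul_mem ha hx) v
  · exact mem_orbit (mul_mem (star_mem ha) hx) v

theorem starProjection_self (A : VonNeumannAlgebra H) (v : H) :
    (orbit A v).starProjection v = v :=
  Submodule.starProjection_eq_self_iff.2 (mem_orbit (x := 1) (one_mem A) v)

/-- A separating vector is cyclic for the commutant. -/
theorem dense_commutant (hcs : IsCS N Ω) (w : H) : w ∈ orbit N.commutant Ω := by
  have hp : (orbit N.commutant Ω).starProjection ∈ N := by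
    have := starProjection_mem_commutant N.commutant Ω
    rwa [VonNeumannAlgebra.commutant_commutant] at this
  have h0 : 1 - (orbit N.commutant Ω).starProjection = 0 :=
    hcs.separating _ (sub_mem (one_mem N) hp) (by
      show Ω - (orbit N.commutant Ω).starProjection Ω = 0
      rw [starProjection_self, sub_self])
  refine Submodule.starProjection_eq_self_iff.1 ?_
  rw [← sub_eq_zero.1 h0]
  rfl

theorem denseRange_orbitMap (hcs : IsCS N Ω) : DenseRange (orbitMap N Ω) := fun w => by
  refine Metric.mem_closure_iff.2 fun η hη => ?_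
  obtain ⟨x, hx, hd⟩ := hcs.cyclic w (η / 2) (by linarith)
  refine ⟨x Ω, ⟨⟨x, hx⟩, rfl⟩, ?_⟩
  rw [dist_comm, dist_eq_norm]
  linarith

/-- Two operators agreeing on `N Ω` are equal. -/
theorem ext_cyclic (hcs : IsCS N Ω) {S T : H →L[ℂ] H} (h : ∀ y ∈ N, S (y Ω) = T (y Ω)) : S = T :=
  DFunLike.coe_injective ((denseRange_orbitMap hcs).equalizer S.continuous T.continuous
    (funext fun y => h y.1 y.2))

/-- A vector is known from its products with `N Ω`. -/
theorem eq_of_inner (hcs : IsCS N Ω) {u v : H} (h : ∀ y ∈ N, ⟪u, y Ω⟫_ℂ = ⟪v, y Ω⟫_ℂ) : u = v :=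
  ext_inner_right ℂ fun w => congrFun ((denseRange_orbitMap hcs).equalizer
    (continuous_const.inner continuous_id) (continuous_const.inner continuous_id)
    (funext fun y => h y.1 y.2)) w

/-- A vector is known from the products of `N Ω` with it. -/
theorem eq_of_inner' (hcs : IsCS N Ω) {u v : H} (h : ∀ y ∈ N, ⟪y Ω, u⟫_ℂ = ⟪y Ω, v⟫_ℂ) : u = v :=
  eq_of_inner hcs fun y hy => by rw [← inner_conj_symm, h y hy, inner_conj_symm]

/-- The partner of `g`: `y Ω ↦ y g Ω`. -/
noncomputable def partner (N : VonNeumannAlgebra H) (Ω : H) (g : H →L[ℂ] H) : H →L[ℂ] H :=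
  LinearMap.extendOfNorm (orbitMap N (g Ω)) (orbitMap N Ω)

theorem norm_apply_eq (hG : Grps N Ω G) {k : ℕ} {g : H →L[ℂ] H} (hg : g ∈ G k) {y : H →L[ℂ] H}
    (hy : y ∈ N) : ‖y (g Ω)‖ = ‖y Ω‖ := by
  have h := hG.central k (star g) (hG.star_mem k g hg) (star y * y * g)
    (mul_mem (mul_mem (star_mem hy) hy) (hG.mem k g hg))
  simp only [mul_apply_eq_comp, ContinuousLinearMap.star_eq_adjoint,
    ContinuousLinearMap.adjoint_inner_right] at h
  have hgg : g (ContinuousLinearMap.adjoint g Ω) = Ω := by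
    rw [← ContinuousLinearMap.star_eq_adjoint, ← mul_apply_eq_comp, (hG.unit k g hg).2]
    rfl
  rw [hgg] at h
  rw [inner_self_eq_norm_sq_to_K, inner_self_eq_norm_sq_to_K] at h
  exact (pow_left_inj₀ (norm_nonneg _) (norm_nonneg _) two_ne_zero).1 (by exact_mod_cast h)

variable (hG : Grps N Ω G)
include hG

theorem partner_apply {k : ℕ} {g : H →L[ℂ] H} (hg : g ∈ G k) {y : H →L[ℂ] H} (hy : y ∈ N) :
    partner N Ω g (y Ω) = y (g Ω) :=
  LinearMap.extendOfNorm_eq (f := orbitMap N (g Ω)) (denseRange_orbitMap hG.cs)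
    ⟨1, fun z => by rw [one_mul]; exact (norm_apply_eq hG hg z.2).le⟩ ⟨y, hy⟩

theorem partner_omega {k : ℕ} {g : H →L[ℂ] H} (hg : g ∈ G k) : partner N Ω g Ω = g Ω :=
  partner_apply hG hg (y := 1) (one_mem N)

theorem partner_mem {k : ℕ} {g : H →L[ℂ] H} (hg : g ∈ G k) : partner N Ω g ∈ N.commutant :=
  VonNeumannAlgebra.mem_commutant_iff.2 fun a ha => ext_cyclic hG.cs fun y hy => by
    rw [mul_apply_eq_comp, mul_apply_eq_comp, partner_apply hG hg hy]
    exact (partner_apply hG hg (mul_mem ha hy)).symm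

theorem partner_one : partner N Ω 1 = 1 :=
  ext_cyclic hG.cs fun y hy => by rw [partner_apply hG (hG.one_mem 0) hy]; rfl

theorem partner_mul {k : ℕ} {g h : H →L[ℂ] H} (hg : g ∈ G k) (hh : h ∈ G k) :
    partner N Ω g * partner N Ω h = partner N Ω (h * g) :=
  ext_cyclic hG.cs fun y hy => by
    rw [mul_apply_eq_comp, partner_apply hG hh hy, ← mul_apply_eq_comp y h,
      partner_apply hG hg (mul_mem hy (hG.mem k h hh)),
      partner_apply hG (hG.mul_mem k h hh g hg) hy, mul_apply_eq_comp, mul_apply_eq_comp]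

theorem star_partner {k : ℕ} {g : H →L[ℂ] H} (hg : g ∈ G k) :
    star (partner N Ω g) = partner N Ω (star g) := by
  have hgs := hG.star_mem k g hg
  have h1 : partner N Ω g * partner N Ω (star g) = 1 := by
    rw [partner_mul hG hg hgs, (hG.unit k g hg).1, partner_one hG]
  have h2 : star (partner N Ω g) * partner N Ω g = 1 := by
    refine (ContinuousLinearMap.norm_map_iff_adjoint_comp_self (partner N Ω g)).1 ?_
    refine fun w => congrFun ((denseRange_orbitMap hG.cs).equalizer
      (partner N Ω g).continuous.norm continuous_norm (funext fun y => ?_)) w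
    exact (congrArg norm (partner_apply hG hg y.2)).trans (norm_apply_eq hG hg y.2)
  exact left_inv_eq_right_inv h2 h1

/-- The partners form a tower. -/
theorem exists_partner_tower :
    ∃ R, Conj.IsTower R ∧ (∀ g' ∈ Conj.carrier R, g' ∈ N.commutant) ∧
      (∀ g' ∈ Conj.carrier R, ∃ k, ∃ g ∈ G k, g' = partner N Ω g) ∧
      ∀ k, ∀ g ∈ G k, partner N Ω g ∈ Conj.carrier R := by
  classical
  refine ⟨fun n => (G n).image (partner N Ω), ?_, ?_, ?_, fun k g hg => ⟨k, Finset.mem_image.2 ⟨g, hg, rfl⟩⟩⟩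
  · refine ⟨fun n => Finset.mem_image.2 ⟨1, hG.one_mem n, partner_one hG⟩, fun n a ha b hb => ?_,
      fun n a ha => ?_, fun n a ha => ?_, fun n a ha => ?_⟩
    all_goals obtain ⟨g, hg, rfl⟩ := Finset.mem_image.1 ha
    · obtain ⟨h, hh, rfl⟩ := Finset.mem_image.1 hb
      exact Finset.mem_image.2 ⟨h * g, hG.mul_mem n h hh g hg, (partner_mul hG hg hh).symm⟩
    · exact Finset.mem_image.2 ⟨star g, hG.star_mem n g hg, (star_partner hG hg).symm⟩
    · have hgs := hG.star_mem n g hg
      constructor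
      · rw [star_partner hG hg, partner_mul hG hgs hg, (hG.unit n g hg).2, partner_one hG]
      · rw [star_partner hG hg, partner_mul hG hg hgs, (hG.unit n g hg).1, partner_one hG]
    · exact Finset.mem_image.2 ⟨g, hG.mono n hg, rfl⟩
  all_goals
    rintro g' ⟨n, hn⟩
    obtain ⟨g, hg, rfl⟩ := Finset.mem_image.1 hn
  · exact partner_mem hG hg
  · exact ⟨n, g, hg, rfl⟩

/-- The partners are irreducible over the centre in the commutant. -/
theorem partner_irred {x : H →L[ℂ] H} (hx : x ∈ N.commutant)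
    (hc : ∀ k, ∀ g ∈ G k, Commute x (partner N Ω g)) : x ∈ N := by
  let Z : Submodule ℂ H :=
    ((LinearMap.range (orbitMap N Ω)) ⊓
      { carrier := {w | ∃ z, InCentre N z ∧ z Ω = w}
        add_mem' := by
          rintro _ _ ⟨a, ⟨ha, ha'⟩, rfl⟩ ⟨b, ⟨hb, hb'⟩, rfl⟩
          exact ⟨a + b, ⟨add_mem ha hb, add_mem ha' hb'⟩, rfl⟩
        zero_mem' := ⟨0, ⟨zero_mem N, zero_mem N.commutant⟩, rfl⟩
        smul_mem' := by
          rintro c _ ⟨a, ⟨ha, ha'⟩, rfl⟩
          exact ⟨c • a, ⟨N.toStarSubalgebra.smul_mem ha c,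
            N.commutant.toStarSubalgebra.smul_mem ha' c⟩, rfl⟩ }).topologicalClosure
  have : CompleteSpace Z := (Submodule.isClosed_topologicalClosure _).completeSpace_coe
  have hT : Conj.IsTower G := ⟨hG.one_mem, hG.mul_mem, hG.star_mem, hG.unit, fun n a ha => hG.mono n ha⟩
  have hZmem : ∀ z, InCentre N z → z Ω ∈ Z := fun z hz =>
    Submodule.le_topologicalClosure _ ⟨⟨⟨z, hz.1⟩, rfl⟩, z, hz, rfl⟩
  have hfix : ∀ {v : H}, (∀ k, ∀ g ∈ G k, g (partner N Ω (star g) v) = v) →
      ∀ y ∈ N, ∃ z, InCentre N z ∧ ⟪v, y Ω⟫_ℂ = ⟪v, z Ω⟫_ℂ := by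
    intro v hv y hy
    obtain ⟨z, hz⟩ := Conj.exists_meanTo hT (f := fun g => g * y * star g) (c := ‖y‖) fun g hg => by
      have h1 := norm_mul_le (g * y) (star g)
      rw [norm_star] at h1
      rcases subsingleton_or_nontrivial H with hH | hH
      · rw [Subsingleton.elim (g * y * star g) (0 : H →L[ℂ] H), norm_zero]; positivity
      · have h2 := Conj.norm_unitary_le (hT.carrier_unit hg)
        refine h1.trans ((mul_le_mul ((norm_mul_le g y).trans
          (mul_le_mul h2 le_rfl (norm_nonneg _) zero_le_one)) h2 (norm_nonneg _)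
          (by positivity)).trans_eq (by ring))
    have hzN : z ∈ N := hz.mem N fun g ⟨k, hg⟩ =>
      mul_mem (mul_mem (hG.mem k g hg) hy) (star_mem (hG.mem k g hg))
    have hzc : z ∈ N.commutant := hG.irred z hzN fun k g hg => by
      refine ((hz.mul_right g).translate hT ⟨k, hg⟩).unique
        ((hz.mul_left g).congr fun h hh => ?_) |>.symm
      rw [star_mul, show g * h * y * (star h * star g) * g = g * h * y * star h * (star g * g) by
        noncomm_ring, (hG.unit k g hg).1, mul_one]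
      noncomm_ring
    refine ⟨z, ⟨hzN, hzc⟩, tendsto_nhds_unique ?_ (hz v Ω)⟩
    refine tendsto_const_nhds.congr fun n => ?_
    have e : ∀ g ∈ G n, ⟪v, (g * y * star g) Ω⟫_ℂ = ⟪v, y Ω⟫_ℂ := fun g hg => by
      have hgs := hG.star_mem n g hg
      have hu : ∀ S : H →L[ℂ] H, star S * S = 1 → ∀ a b, ⟪S a, S b⟫_ℂ = ⟪a, b⟫_ℂ := fun S hS a b => by
        rw [← ContinuousLinearMap.adjoint_inner_right, ← ContinuousLinearMap.star_eq_adjoint,
          ← mul_apply_eq_comp, hS]
        rfl
      have hp : star (partner N Ω (star g)) * partner N Ω (star g) = 1 := by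
        rw [star_partner hG hgs, star_star, partner_mul hG hg hgs, (hG.unit n g hg).1, partner_one hG]
      conv_lhs => rw [← hv n g hg]
      rw [mul_apply_eq_comp, mul_apply_eq_comp, hu g (hG.unit n g hg).1, ← partner_apply hG hgs hy,
        hu _ hp]
    rw [Conj.levelAvg, smul_apply, sum_apply, inner_smul_right, inner_sum, Finset.sum_congr rfl e,
      Finset.sum_const, ← Nat.cast_smul_eq_nsmul ℂ, smul_eq_mul, ← mul_assoc,
      inv_mul_cancel₀ (Nat.cast_ne_zero.2 (Finset.card_ne_zero.2 ⟨1, hG.one_mem n⟩)), one_mul]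
  have hWcent : ∀ w ∈ Z, ∀ k, ∀ g ∈ G k, g (partner N Ω (star g) w) = w := by
    intro w hw k g hg
    have hgs := hG.star_mem k g hg
    refine closure_minimal ?_ (isClosed_eq (g.comp (partner N Ω (star g))).continuous continuous_id)
      (show w ∈ closure (((LinearMap.range (orbitMap N Ω)) ⊓ _ : Submodule ℂ H) : Set H) from hw)
    rintro _ ⟨-, z, hz, rfl⟩
    show g (partner N Ω (star g) (z Ω)) = z Ω
    have c : g * z = z * g := VonNeumannAlgebra.mem_commutant_iff.1 hz.2 g (hG.mem k g hg)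
    rw [partner_apply hG hgs hz.1, ← mul_apply_eq_comp g z, c, mul_apply_eq_comp,
      ← mul_apply_eq_comp g (star g), (hG.unit k g hg).2]
    rfl
  have hin : ∀ v, (∀ k, ∀ g ∈ G k, g (partner N Ω (star g) v) = v) → v ∈ Z := fun v hv => by
    refine Submodule.starProjection_eq_self_iff.1 ?_
    refine eq_of_inner hG.cs fun y hy => ?_
    have hv' : ∀ k, ∀ g ∈ G k, g (partner N Ω (star g) (v - Z.starProjection v)) =
        v - Z.starProjection v := fun k g hg => by
      rw [map_sub, map_sub, hv k g hg, hWcent _ (Submodule.starProjection_apply_mem _ v) k g hg]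
    obtain ⟨z, hz, e⟩ := hfix hv' y hy
    rw [Submodule.starProjection_inner_eq_zero v _ (hZmem z hz), inner_sub_left, sub_eq_zero] at e
    exact e.symm
  have hxfix : ∀ x' ∈ N.commutant, (∀ k, ∀ g ∈ G k, Commute x' (partner N Ω g)) → x' Ω ∈ Z :=
    fun x' hx' hc' => hin _ fun k g hg => by
      have hgs := hG.star_mem k g hg
      have c1 : g * x' = x' * g := VonNeumannAlgebra.mem_commutant_iff.1 hx' g (hG.mem k g hg)
      rw [← mul_apply_eq_comp (partner N Ω (star g)), ← (hc' k _ hgs).eq, mul_apply_eq_comp,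
        partner_omega hG hgs, ← mul_apply_eq_comp g x', c1, mul_apply_eq_comp,
        ← mul_apply_eq_comp g, (hG.unit k g hg).2]
      rfl
  have hxs : star x Ω ∈ Z := hxfix _ (star_mem hx) fun k g hg => by
    have := (hc k _ (hG.star_mem k g hg)).star_star
    rwa [star_partner hG (hG.star_mem k g hg), star_star] at this
  obtain ⟨w, hw, hlim⟩ := mem_closure_iff_seq_limit.1
    (show star x Ω ∈ closure (((LinearMap.range (orbitMap N Ω)) ⊓ _ : Submodule ℂ H) : Set H) from hxs)
  choose z hz hzw using fun n => (hw n).2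
  have hnorm : ∀ c, InCentre N c → ∀ v : H, ‖star c v‖ = ‖c v‖ := fun c hc v => by
    have e : c * star c = star c * c :=
      (VonNeumannAlgebra.mem_commutant_iff.1 (star_mem hc.2) c hc.1)
    have h : ⟪star c v, star c v⟫_ℂ = ⟪c v, c v⟫_ℂ := by
      rw [ContinuousLinearMap.star_eq_adjoint, ContinuousLinearMap.adjoint_inner_left,
        ← ContinuousLinearMap.star_eq_adjoint, ← mul_apply_eq_comp, e, mul_apply_eq_comp,
        ContinuousLinearMap.star_eq_adjoint, ContinuousLinearMap.adjoint_inner_right]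
    rw [inner_self_eq_norm_sq_to_K, inner_self_eq_norm_sq_to_K] at h
    exact (pow_left_inj₀ (norm_nonneg _) (norm_nonneg _) two_ne_zero).1 (by exact_mod_cast h)
  have hcau : CauchySeq fun n => star (z n) Ω := Metric.cauchySeq_iff.2 fun η hη => by
    obtain ⟨m, hm⟩ := Metric.cauchySeq_iff.1 hlim.cauchySeq η hη
    refine ⟨m, fun i hi j hj => ?_⟩
    have := hm i hi j hj
    rw [← hzw i, ← hzw j, dist_eq_norm, ← sub_apply] at this
    rw [dist_eq_norm, ← sub_apply, ← star_sub, hnorm _ ⟨sub_mem (hz i).1 (hz j).1,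
      sub_mem (hz i).2 (hz j).2⟩]
    exact this
  obtain ⟨u, hu⟩ := cauchySeq_tendsto_of_complete hcau
  have hux : u = x Ω := by
    refine eq_of_inner hG.cs fun y hy => ?_
    obtain ⟨y, rfl⟩ : ∃ y' : Alg N, (y' : H →L[ℂ] H) = y := ⟨⟨y, hy⟩, rfl⟩
    show ⟪u, (y : H →L[ℂ] H) Ω⟫_ℂ = ⟪x Ω, (y : H →L[ℂ] H) Ω⟫_ℂ
    refine tendsto_nhds_unique (hu.inner (𝕜 := ℂ) tendsto_const_nhds) ?_
    have h2 : Tendsto (fun n => ⟪Ω, (y : H →L[ℂ] H) (z n Ω)⟫_ℂ) atTop
        (𝓝 ⟪Ω, (y : H →L[ℂ] H) (star x Ω)⟫_ℂ) :=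
      tendsto_const_nhds.inner (((y : H →L[ℂ] H).continuous.tendsto _).comp
        (hlim.congr fun n => (hzw n).symm))
    have c2 : (y : H →L[ℂ] H) * star x = star x * y :=
      VonNeumannAlgebra.mem_commutant_iff.1 (star_mem hx) _ y.2
    rw [← mul_apply_eq_comp (y : H →L[ℂ] H) (star x), c2, mul_apply_eq_comp,
      ContinuousLinearMap.star_eq_adjoint, ContinuousLinearMap.adjoint_inner_right] at h2
    refine h2.congr fun n => ?_
    rw [ContinuousLinearMap.star_eq_adjoint, ContinuousLinearMap.adjoint_inner_left,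
      ← mul_apply_eq_comp (y : H →L[ℂ] H) (z n),
      VonNeumannAlgebra.mem_commutant_iff.1 (hz n).2 _ y.2, mul_apply_eq_comp]
  rw [← VonNeumannAlgebra.commutant_commutant N]
  refine VonNeumannAlgebra.mem_commutant_iff.2 fun x' hx' => ?_
  have key : ∀ a ∈ N.commutant, x (a Ω) = a (x Ω) := fun a ha => by
    refine eq_of_inner' hG.cs fun y hy => ?_
    obtain ⟨y, rfl⟩ : ∃ y' : Alg N, (y' : H →L[ℂ] H) = y := ⟨⟨y, hy⟩, rfl⟩
    show ⟪(y : H →L[ℂ] H) Ω, x (a Ω)⟫_ℂ = ⟪(y : H →L[ℂ] H) Ω, a (x Ω)⟫_ℂ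
    have c2 : (y : H →L[ℂ] H) * star x = star x * y :=
      VonNeumannAlgebra.mem_commutant_iff.1 (star_mem hx) _ y.2
    rw [← ContinuousLinearMap.adjoint_inner_left, ← ContinuousLinearMap.star_eq_adjoint,
      ← mul_apply_eq_comp (star x), ← c2, mul_apply_eq_comp]
    refine tendsto_nhds_unique ((((y : H →L[ℂ] H).continuous.tendsto _).comp
      (hlim.congr fun n => (hzw n).symm)).inner (𝕜 := ℂ) tendsto_const_nhds) ?_
    rw [← hux]
    refine (tendsto_const_nhds.inner ((a.continuous.tendsto _).comp hu)).congr fun n => ?_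
    show ⟪(y : H →L[ℂ] H) Ω, a (star (z n) Ω)⟫_ℂ = ⟪(y : H →L[ℂ] H) (z n Ω), a Ω⟫_ℂ
    have c3 : star (z n) * a = a * star (z n) :=
      VonNeumannAlgebra.mem_commutant_iff.1 ha _ (star_mem (hz n).1)
    rw [← mul_apply_eq_comp a, ← c3, mul_apply_eq_comp, ContinuousLinearMap.star_eq_adjoint,
      ContinuousLinearMap.adjoint_inner_right, ← mul_apply_eq_comp (z n),
      ← VonNeumannAlgebra.mem_commutant_iff.1 (hz n).2 _ y.2, mul_apply_eq_comp]
  refine ContinuousLinearMap.ext fun w => ?_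
  show x' (x w) = x (x' w)
  refine orbit_induction (P := fun w => x' (x w) = x (x' w))
    (isClosed_eq (by fun_prop) (by fun_prop)) (fun a ha => ?_) (dense_commutant hG.cs w)
  rw [key a ha, ← mul_apply_eq_comp x' a, ← mul_apply_eq_comp x' a, key _ (mul_mem hx' ha)]

end Vale.Agent.P096.III.Pin
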