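import Vale.Agent.P096.III.Iface
import Vale.Agent.P096.III.Pin.Partner
import Vale.Agent.P096.Reduce.Corner
import Vale.Agent.P078.General.Witness

/-!
# P096 Pin: one unitary near one moves the groups into the other algebra
-/

namespace Vale.Agent.P096.III.Pin

open scoped InnerProductSpace Topology
open Filter
open Vale.Agent.P132 (IsCS)

universe u

variable {H : Type u} [NormedAddCommGroup H] [InnerProductSpace ℂ H] [CompleteSpace H]

/-- The centre as an algebra. -/
theorem exists_centre (N : VonNeumannAlgebra H) :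
    ∃ Z : VonNeumannAlgebra H, ∀ x, x ∈ Z ↔ InCentre N x := by
  refine ⟨Vale.Agent.P078.General.vnOf ((N : Set (H →L[ℂ] H)) ∪ (N.commutant : Set (H →L[ℂ] H))),
    fun x => ⟨fun h => ⟨?_, ?_⟩, fun h => Vale.Agent.P078.General.mem_vnOf.2 ?_⟩⟩
  · rw [← VonNeumannAlgebra.commutant_commutant N]
    exact VonNeumannAlgebra.mem_commutant_iff.2 fun y hy =>
      Vale.Agent.P078.General.mem_vnOf.1 h y (Or.inl (Or.inr hy))
  · exact VonNeumannAlgebra.mem_commutant_iff.2 fun y hy =>
      Vale.Agent.P078.General.mem_vnOf.1 h y (Or.inl (Or.inl hy))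
  · have k : ∀ s, s ∈ N ∨ s ∈ N.commutant → s * x = x * s := by
      rintro s (hs | hs)
      · exact VonNeumannAlgebra.mem_commutant_iff.1 h.2 s hs
      · exact (VonNeumannAlgebra.mem_commutant_iff.1 hs x h.1).symm
    rintro s (hs | hs)
    · exact k s hs
    · exact k s (hs.imp (fun h' => star_star s ▸ star_mem (s := N) h')
        fun h' => star_star s ▸ star_mem (s := N.commutant) h')

/-- With the groups and partners common, the vector is cyclic and separating, and the centres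
agree. -/
theorem pinned_of_common {M N : VonNeumannAlgebra H} {Ω : H} {G R L : ℕ → Finset (H →L[ℂ] H)}
    [Nontrivial H] (hG : Grps N Ω G) (hR : Conj.IsTower R) (hL : Conj.IsTower L)
    (hRN : ∀ g' ∈ Conj.carrier R, g' ∈ N.commutant)
    (hRG : ∀ g' ∈ Conj.carrier R, ∃ k, ∃ g ∈ G k, g' = partner N Ω g)
    (hGR : ∀ k, ∀ g ∈ G k, partner N Ω g ∈ Conj.carrier R)
    (hLZ : ∀ g ∈ Conj.carrier L, InCentre N g)
    (hLgen : ∀ y, (∀ g ∈ Conj.carrier L, Commute y g) → ∀ z, InCentre N z → Commute y z)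
    (hKM : ∀ g ∈ Conj.carrier (Conj.towerMul L G), g ∈ M)
    (hKM' : ∀ g ∈ Conj.carrier (Conj.towerMul L R), g ∈ M.commutant)
    {δ : ℝ} (hδ : δ < 1) (h1 : BallNear M N δ) (h2 : BallNear M.commutant N.commutant δ) :
    Pinned0 M N Ω G := by
  classical
  have hT : Conj.IsTower G :=
    ⟨hG.one_mem, hG.mul_mem, hG.star_mem, hG.unit, fun n a ha => hG.mono n ha⟩
  have hLG : ∀ a ∈ Conj.carrier L, ∀ b ∈ Conj.carrier G, Commute a b := fun a ha b ⟨k, hb⟩ =>
    (VonNeumannAlgebra.mem_commutant_iff.1 (hLZ a ha).2 b (hG.mem k b hb)).symm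
  have hLR : ∀ a ∈ Conj.carrier L, ∀ b ∈ Conj.carrier R, Commute a b := fun a ha b hb =>
    VonNeumannAlgebra.mem_commutant_iff.1 (hRN b hb) a (hLZ a ha).1
  have hK := Conj.isTower_towerMul hL hT hLG
  have hK' := Conj.isTower_towerMul hL hR hLR
  have hLM : ∀ a ∈ Conj.carrier L, a ∈ M := fun a ha => hKM a (Conj.left_mem_towerMul hT ha)
  have hLM' : ∀ a ∈ Conj.carrier L, a ∈ M.commutant := fun a ha =>
    hKM' a (Conj.left_mem_towerMul hR ha)
  have hGM : ∀ k, ∀ g ∈ G k, g ∈ M := fun k g hg => hKM g (Conj.right_mem_towerMul hL ⟨k, hg⟩)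
  have hRM : ∀ b ∈ Conj.carrier R, b ∈ M.commutant := fun b hb =>
    hKM' b (Conj.right_mem_towerMul hL hb)
  have hKN : ∀ g ∈ Conj.carrier (Conj.towerMul L G), g ∈ N :=
    Conj.towerMul_mem (fun g hg => (hLZ g hg).1) fun g ⟨k, hg⟩ => hG.mem k g hg
  have hKN' : ∀ g ∈ Conj.carrier (Conj.towerMul L R), g ∈ N.commutant :=
    Conj.towerMul_mem (fun g hg => (hLZ g hg).2) hRN
  have hcen : ∀ z ∈ N, z ∈ N.commutant → z ∈ M ∧ z ∈ M.commutant := fun z hz hz' =>
    ⟨Conj.mem_of_generated hLM fun y hy => hLgen y hy z ⟨hz, hz'⟩,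
      Conj.mem_of_generated hLM' fun y hy => hLgen y hy z ⟨hz, hz'⟩⟩
  obtain ⟨hrel, hZ⟩ := Conj.relComm_eq_centre (M := N) (N := M) hK hKN hKM hδ h1
    (fun a ha hc => hG.irred a ha fun k g hg =>
      (hc g (Conj.right_mem_towerMul hL ⟨k, hg⟩)).symm) hcen
  obtain ⟨hrel', -⟩ := Conj.relComm_eq_centre (M := N.commutant) (N := M.commutant) hK' hKN' hKM'
    hδ h2 (fun a ha hc => by
      rw [VonNeumannAlgebra.commutant_commutant]
      exact partner_irred hG ha fun k g hg => hc _ (Conj.right_mem_towerMul hL (hGR k g hg)))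
    (fun z hz hz' => by
      rw [VonNeumannAlgebra.commutant_commutant] at hz' ⊢
      exact (hcen z hz' hz).symm)
  have hcomm : ∀ {K : ℕ → Finset (H →L[ℂ] H)} {p : H →L[ℂ] H},
      (∀ a ∈ Conj.carrier L, Commute p a) → (∀ b ∈ Conj.carrier K, Commute p b) →
        ∀ g ∈ Conj.carrier (Conj.towerMul L K), Commute p g := by
    rintro K p ha hb g ⟨n, hg⟩
    obtain ⟨a, ha', b, hb', rfl⟩ := Finset.mem_image₂.1 hg
    exact (ha a ⟨n, ha'⟩).mul_right (hb b ⟨n, hb'⟩)
  have hzero : ∀ p, InCentre N p → p Ω = Ω → p = 1 := fun p hp hpΩ => by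
    refine (sub_eq_zero.1 (hG.cs.separating _ (sub_mem (one_mem N) hp.1) ?_)).symm
    show Ω - p Ω = 0
    rw [hpΩ, sub_self]
  have hom : ∀ k, ∀ g ∈ G k, partner N Ω g Ω = g Ω := fun k g hg => partner_omega hG hg
  set p := (orbit M Ω).starProjection
  have hp : p = 1 := by
    have hpM : p ∈ M.commutant := starProjection_mem_commutant M Ω
    obtain ⟨q1, q2, -⟩ := hrel' p hpM (hcomm
      (fun a ha => (VonNeumannAlgebra.mem_commutant_iff.1 hpM a (hLM a ha)).symm) fun b hb => by
        obtain ⟨k, g, hg, rfl⟩ := hRG b hb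
        have inv : ∀ h ∈ G k, ∀ x ∈ M, partner N Ω h (x Ω) ∈ orbit M Ω := fun h hh x hx => by
          rw [← mul_apply_eq_comp, ← VonNeumannAlgebra.mem_commutant_iff.1
            (hRM _ (hGR k h hh)) x hx, mul_apply_eq_comp, hom k h hh, ← mul_apply_eq_comp]
          exact mem_orbit (mul_mem hx (hGM k h hh)) Ω
        exact (commute_starProjection (inv g hg) fun x hx => by
          rw [star_partner hG hg]; exact inv _ (hG.star_mem k g hg) x hx).symm)
    rw [VonNeumannAlgebra.commutant_commutant] at q2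
    exact hzero p ⟨q2, q1⟩ (starProjection_self M Ω)
  set q := (orbit M.commutant Ω).starProjection
  have hq : q = 1 := by
    have hqM : q ∈ M := by
      have := starProjection_mem_commutant M.commutant Ω
      rwa [VonNeumannAlgebra.commutant_commutant] at this
    obtain ⟨q1, q2, -⟩ := hrel q hqM (hcomm
      (fun a ha => VonNeumannAlgebra.mem_commutant_iff.1 (hLM' a ha) q hqM) fun b hb => by
        obtain ⟨k, hb⟩ := hb
        have inv : ∀ h ∈ G k, ∀ x ∈ M.commutant, h (x Ω) ∈ orbit M.commutant Ω := fun h hh x hx => by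
          rw [← mul_apply_eq_comp, VonNeumannAlgebra.mem_commutant_iff.1 hx h (hGM k h hh),
            mul_apply_eq_comp, ← hom k h hh, ← mul_apply_eq_comp]
          exact mem_orbit (mul_mem hx (hRM _ (hGR k h hh))) Ω
        exact (commute_starProjection (inv b hb)
          fun x hx => inv _ (hG.star_mem k b hb) x hx).symm)
    exact hzero q ⟨q1, q2⟩ (starProjection_self M.commutant Ω)
  refine ⟨⟨⟨hG.cs.norm, fun ξ η hη => ?_, fun x hx hxΩ => ?_⟩, hG.one_mem, hG.mul_mem, hG.star_mem,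
    hG.unit, hG.mono, hGM, fun k g hg x hx => ?_, fun x hx hc => ?_⟩, hG, fun z => (hZ z)⟩
  · have hξ : ξ ∈ orbit M Ω := Submodule.starProjection_eq_self_iff.1 (by
      show p ξ = ξ
      rw [hp]; rfl)
    have hξ' : ξ ∈ closure (Set.range (orbitMap M Ω)) := by
      rw [← LinearMap.coe_range, ← Submodule.topologicalClosure_coe]
      exact hξ
    obtain ⟨_, ⟨x, rfl⟩, hd⟩ := Metric.mem_closure_iff.1 hξ' η hη
    refine ⟨x.1, x.2, ?_⟩
    rw [dist_comm, dist_eq_norm] at hd
    exact hd.le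
  · refine ContinuousLinearMap.ext fun w => ?_
    have hw : w ∈ orbit M.commutant Ω := Submodule.starProjection_eq_self_iff.1 (by
      show q w = w
      rw [hq]; rfl)
    refine orbit_induction (P := fun w => x w = 0) (isClosed_eq (by fun_prop) continuous_const)
      (fun a ha => ?_) hw
    rw [← mul_apply_eq_comp, VonNeumannAlgebra.mem_commutant_iff.1 ha x hx, mul_apply_eq_comp,
      hxΩ, map_zero]
  · have hr := hRM _ (hGR k g hg)
    have e2 : ⟪Ω, g (x Ω)⟫_ℂ = ⟪star (partner N Ω g) Ω, x Ω⟫_ℂ := by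
      rw [star_partner hG hg, partner_omega hG (hG.star_mem k g hg),
        ContinuousLinearMap.star_eq_adjoint, ContinuousLinearMap.adjoint_inner_left]
    rw [e2, ContinuousLinearMap.star_eq_adjoint, ContinuousLinearMap.adjoint_inner_left,
      ← mul_apply_eq_comp, ← VonNeumannAlgebra.mem_commutant_iff.1 hr x hx, mul_apply_eq_comp,
      partner_omega hG hg]
  · exact ((hrel x hx (hcomm
      (fun a ha => VonNeumannAlgebra.mem_commutant_iff.1 (hLM' a ha) x hx)
      fun b ⟨k, hb⟩ => (hc k b hb).symm))).2.2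

/-- Pin. -/
theorem stmtPin : Iface.StmtPin.{u} := by
  obtain ⟨C, δ₀, hC, hδ₀, hF⟩ := Conj.exists_conj_frame.{u}
  obtain ⟨D, hD, hR'⟩ := Linear.exists_near_commutant.{u}
  refine ⟨C, min δ₀ (1 / (2 * ((D + 1) * (1 + 2 * C)))), hC, by positivity, ?_⟩
  intro H _ _ _ _ M N Ω G ε hG hε hε0 hN
  have : Nontrivial H := nontrivial_of_ne Ω 0 fun h => by
    have := hG.cs.norm; rw [h, norm_zero] at this; exact zero_ne_one this
  obtain ⟨Z, hZ⟩ := exists_centre N
  obtain ⟨L, hL, hLZ, hLgen⟩ := Conj.exists_abelian_tower Z fun a ha b hb =>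
    VonNeumannAlgebra.mem_commutant_iff.1 ((hZ b).1 hb).2 a ((hZ a).1 ha).1
  obtain ⟨R, hR, hRN, hRG, hGR⟩ := exists_partner_tower hG
  have hT : Conj.IsTower G :=
    ⟨hG.one_mem, hG.mul_mem, hG.star_mem, hG.unit, fun n a ha => hG.mono n ha⟩
  have hK := Conj.isTower_towerMul hL hT fun a ha b ⟨k, hb⟩ =>
    (VonNeumannAlgebra.mem_commutant_iff.1 ((hZ a).1 (hLZ a ha)).2 b (hG.mem k b hb)).symm
  have hK' := Conj.isTower_towerMul hL hR fun a ha b hb =>
    VonNeumannAlgebra.mem_commutant_iff.1 (hRN b hb) a ((hZ a).1 (hLZ a ha)).1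
  obtain ⟨v, hv, hv1, hvK, hvK'⟩ := hF H N M _ _ ε hK hK'
    (Conj.towerMul_mem (fun g hg => ((hZ g).1 (hLZ g hg)).1) fun g ⟨k, hg⟩ => hG.mem k g hg)
    (Conj.towerMul_mem (fun g hg => ((hZ g).1 (hLZ g hg)).2) hRN) hε.le
    (hε0.trans (min_le_left _ _)) ⟨hN.2, hN.1⟩
  have hw := Unitary.star_mem hv
  have hw1 : ‖star v - 1‖ ≤ C * ε := by rwa [← star_one, ← star_sub, norm_star]
  set M₁ := Reduce.conjAlg (star v) M with hM₁
  have hn1 := Reduce.ballNear_conj hw hw1 hN
  have hn2 := hR' H M₁ N (ε + 2 * (C * ε)) (by positivity) hn1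
  have hsmall : (D + 1) * (ε + 2 * (C * ε)) ≤ 1 / 2 := by
    have h := mul_le_mul_of_nonneg_left (hε0.trans (min_le_right _ _))
      (show 0 ≤ (D + 1) * (1 + 2 * C) by positivity)
    refine le_trans (le_of_eq (by ring)) (h.trans_eq ?_)
    field_simp
  have hself : ∀ k : H →L[ℂ] H, star v * (v * k * star v) * star (star v) = k := fun k => by
    rw [star_star, show star v * (v * k * star v) * v = star v * v * k * (star v * v) by
      noncomm_ring, hv.1, one_mul, mul_one]
  refine ⟨star v, hw, hw1, M₁, ⟨fun x hx => Reduce.conj_mem hw hx,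
    fun y hy => Reduce.of_mem_conjAlg hw hy⟩, ?_⟩
  refine pinned_of_common (δ := (D + 1) * (ε + 2 * (C * ε))) hG hR hL hRN hRG hGR
    (fun g hg => (hZ g).1 (hLZ g hg)) (fun y hy z hz => hLgen y hy z ((hZ z).2 hz))
    (fun k hk => ?_) (fun k hk => ?_) (hsmall.trans_lt (by norm_num)) ?_ ?_
  · rw [← hself k]
    exact Reduce.conj_mem hw (hvK k hk)
  · refine VonNeumannAlgebra.mem_commutant_iff.2 fun T hT => ?_
    have hTM := Reduce.of_mem_conjAlg hw hT
    rw [star_star] at hTM
    have c := congrArg (fun S => star v * S * v)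
      (VonNeumannAlgebra.mem_commutant_iff.1 (hvK' k hk) _ hTM)
    simp only [show star v * (v * T * star v * (v * k * star v)) * v =
      (star v * v) * T * (star v * v) * k * (star v * v) by noncomm_ring,
      show star v * (v * k * star v * (v * T * star v)) * v =
      (star v * v) * k * (star v * v) * T * (star v * v) by noncomm_ring, hv.1, one_mul,
      mul_one] at c
    exact c
  · exact fun x hx h1 => (hn1.1 x hx h1).imp fun y hy => ⟨hy.1, hy.2.1, hy.2.2.trans
      (le_mul_of_one_le_left (by positivity) (by linarith))⟩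
  · exact fun x hx h1 => (hn2.1 x hx h1).imp fun y hy => ⟨hy.1, hy.2.1, hy.2.2.trans
      (mul_le_mul_of_nonneg_right (by linarith) (by positivity))⟩

end Vale.Agent.P096.III.Pin
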